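import Mathlib

set_option autoImplicit false

/-!
# Mod 2 chains of small lists, Borsuk-Ulam toolkit
-/
namespace Crest.Agent.BU

universe u v
variable {V : Type u} {W : Type v}

/-- mod 2 chains of (ordered) lists of points -/
abbrev Ch (V : Type u) := List V →₀ ZMod 2

theorem add_self (c : Ch V) : c + c = 0 := by
  ext l; simp [CharTwo.add_self_eq_zero]

theorem two_sm (c : Ch V) : (2 : ℤ) • c = 0 := by rw [two_zsmul, add_self]
theorem two_nsm (c : Ch V) : (2 : ℕ) • c = 0 := by rw [two_nsmul, add_self]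
theorem ntwo_sm (c : Ch V) : (-2 : ℤ) • c = 0 := by rw [neg_smul, two_sm, neg_zero]

theorem eq_of_add_self {a b : Ch V} (h : a + b = 0) : a = b := by
  have : a = a + (b + b) := by rw [add_self, add_zero]
  rw [this, ← add_assoc, h, zero_add]

noncomputable def sg (l : List V) : Ch V := Finsupp.single l 1

/-- a function on lists gives a linear map on chains -/
noncomputable def lift {M : Type*} [AddCommMonoid M] [Module (ZMod 2) M] (f : List V → M) :
    Ch V →ₗ[ZMod 2] M := Finsupp.linearCombination (ZMod 2) f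

@[simp] theorem lift_sg {M : Type*} [AddCommMonoid M] [Module (ZMod 2) M] (f : List V → M)
    (l : List V) : lift f (sg l) = f l := by
  simp [lift, sg]

theorem hom_ext {M : Type*} [AddCommMonoid M] [Module (ZMod 2) M]
    {f g : Ch V →ₗ[ZMod 2] M} (h : ∀ l, f (sg l) = g (sg l)) (c : Ch V) : f c = g c := by
  have : f = g := by
    apply Finsupp.lhom_ext'
    intro l
    apply LinearMap.ext_ring
    exact h l
  rw [this]

noncomputable def cons (v : V) : Ch V →ₗ[ZMod 2] Ch V := lift (fun l => sg (v :: l))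

@[simp] theorem cons_sg (v : V) (l : List V) : cons v (sg l) = sg (v :: l) := by simp [cons]

noncomputable def mp (φ : V → W) : Ch V →ₗ[ZMod 2] Ch W := lift (fun l => sg (l.map φ))

@[simp] theorem mp_sg (φ : V → W) (l : List V) : mp φ (sg l) = sg (l.map φ) := by simp [mp]

noncomputable def bdL : List V → Ch V
  | [] => 0
  | (v :: l) => sg l + cons v (bdL l)

noncomputable def bd : Ch V →ₗ[ZMod 2] Ch V := lift bdL

@[simp] theorem bd_sg (l : List V) : bd (sg l) = bdL l := by simp [bd]

theorem bd_cons (v : V) (c : Ch V) : bd (cons v c) = c + cons v (bd c) := by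
  have := hom_ext (f := bd ∘ₗ cons v) (g := LinearMap.id + cons v ∘ₗ bd) (fun l => by
    simp [bdL]) c
  simpa using this

theorem bd_bdL (l : List V) : bd (bdL l) = 0 := by
  induction l with
  | nil => simp [bdL]
  | cons v l ih =>
    simp only [bdL, map_add, bd_sg, bd_cons, ih, map_zero, add_zero]
    exact add_self _

theorem bd_bd (c : Ch V) : bd (bd c) = 0 := by
  have := hom_ext (f := bd ∘ₗ bd) (g := (0 : Ch V →ₗ[ZMod 2] Ch V)) (fun l => by
    simp [bd_bdL]) c
  simpa using this

theorem mp_cons (φ : V → W) (v : V) (c : Ch V) : mp φ (cons v c) = cons (φ v) (mp φ c) := by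
  have := hom_ext (f := mp φ ∘ₗ cons v) (g := cons (φ v) ∘ₗ mp φ) (fun l => by simp) c
  simpa using this

theorem bdL_map (φ : V → W) (l : List V) : bdL (l.map φ) = mp φ (bdL l) := by
  induction l with
  | nil => simp [bdL]
  | cons v l ih => simp [bdL, ih, mp_cons]

theorem bd_mp (φ : V → W) (c : Ch V) : bd (mp φ c) = mp φ (bd c) := by
  have := hom_ext (f := bd ∘ₗ mp φ) (g := mp φ ∘ₗ bd) (fun l => by simp [bdL_map]) c
  simpa using this

theorem mp_mp {X : Type*} (φ : V → W) (ψ : W → X) (c : Ch V) :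
    mp ψ (mp φ c) = mp (fun x => ψ (φ x)) c := by
  have := hom_ext (f := mp ψ ∘ₗ mp φ) (g := mp (fun x => ψ (φ x))) (fun l => by
    simp [Function.comp_def]) c
  simpa using this

theorem mp_id (c : Ch V) : mp (fun x => x) c = c := by
  have := hom_ext (f := mp (fun x : V => x)) (g := LinearMap.id) (fun l => by simp) c
  simpa using this

/-- the prism operator -/
noncomputable def prL (φ ψ : V → W) : List V → Ch W
  | [] => 0
  | (v :: l) => sg (φ v :: ψ v :: l.map ψ) + cons (φ v) (prL φ ψ l)

noncomputable def pr (φ ψ : V → W) : Ch V →ₗ[ZMod 2] Ch W := lift (prL φ ψ)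

@[simp] theorem pr_sg (φ ψ : V → W) (l : List V) : pr φ ψ (sg l) = prL φ ψ l := by simp [pr]

theorem pr_cons (φ ψ : V → W) (v : V) (c : Ch V) :
    pr φ ψ (cons v c) = cons (φ v) (cons (ψ v) (mp ψ c)) + cons (φ v) (pr φ ψ c) := by
  have := hom_ext (f := pr φ ψ ∘ₗ cons v)
    (g := cons (φ v) ∘ₗ cons (ψ v) ∘ₗ mp ψ + cons (φ v) ∘ₗ pr φ ψ) (fun l => by
    simp [prL]) c
  simpa using this

theorem bd_prL (φ ψ : V → W) (l : List V) :
    bd (prL φ ψ l) + pr φ ψ (bdL l) = sg (l.map φ) + sg (l.map ψ) := by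
  induction l with
  | nil => simp [prL, bdL, add_self]
  | cons v l ih =>
    have ih' : bd (prL φ ψ l) = sg (l.map φ) + sg (l.map ψ) + pr φ ψ (bdL l) := by
      rw [← ih, add_assoc, add_self, add_zero]
    simp only [prL, bdL, map_add, bd_sg, bd_cons, pr_sg, pr_cons, ih', List.map_cons, cons_sg,
      bdL_map]
    apply eq_of_add_self
    abel_nf
    simp [two_sm]

/-! ## cochains -/

/-- evaluation of a cochain (an arbitrary `ZMod 2`-valued function of lists) -/
noncomputable def ev (q : List V → ZMod 2) : Ch V →ₗ[ZMod 2] ZMod 2 := lift q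

@[simp] theorem ev_sg (q : List V → ZMod 2) (l : List V) : ev q (sg l) = q l := by simp [ev]

/-- `a ∪ q` for a 0-cochain `a` -/
def acup (a : V → ZMod 2) (q : List V → ZMod 2) : List V → ZMod 2
  | [] => 0
  | (v :: l) => a v * q (v :: l)

/-- `δa ∪ q` for a 0-cochain `a` -/
def wcup (a : V → ZMod 2) (q : List V → ZMod 2) : List V → ZMod 2
  | (v :: v' :: l) => (a v + a v') * q (v' :: l)
  | _ => 0

/-- coboundary -/
noncomputable def cbd (q : List V → ZMod 2) (l : List V) : ZMod 2 := ev q (bdL l)

theorem ev_bd (q : List V → ZMod 2) (c : Ch V) : ev q (bd c) = ev (cbd q) c := by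
  have := hom_ext (f := ev q ∘ₗ bd) (g := ev (cbd q)) (fun l => by simp [cbd]) c
  simpa using this

theorem ev_cons (q : List V → ZMod 2) (v : V) (c : Ch V) :
    ev q (cons v c) = ev (fun l => q (v :: l)) c := by
  have := hom_ext (f := ev q ∘ₗ cons v) (g := ev (fun l => q (v :: l))) (fun l => by simp) c
  simpa using this

theorem ev_mp (q : List W → ZMod 2) (φ : V → W) (c : Ch V) :
    ev q (mp φ c) = ev (fun l => q (l.map φ)) c := by
  have := hom_ext (f := ev q ∘ₗ mp φ) (g := ev (fun l => q (l.map φ))) (fun l => by simp) c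
  simpa using this

theorem ev_add_fun (q q' : List V → ZMod 2) (c : Ch V) :
    ev (fun l => q l + q' l) c = ev q c + ev q' c := by
  have := hom_ext (f := ev (fun l => q l + q' l)) (g := ev q + ev q') (fun l => by simp) c
  simpa using this

theorem ev_const_mul (a : ZMod 2) (q : List V → ZMod 2) (c : Ch V) :
    ev (fun l => a * q l) c = a * ev q c := by
  have := hom_ext (f := ev (fun l => a * q l)) (g := a • ev q) (fun l => by simp) c
  simpa using this

theorem ev_congr_fun {q q' : List V → ZMod 2} (h : ∀ l, q l = q' l) (c : Ch V) :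
    ev q c = ev q' c := by
  have : q = q' := funext h
  rw [this]

theorem add_self2 (a : ZMod 2) : a + a = 0 := CharTwo.add_self_eq_zero a

/-- the Leibniz rule `δ(a ∪ q) = δa ∪ q + a ∪ δq` -/
theorem cbd_acup (a : V → ZMod 2) (q : List V → ZMod 2) (v v' : V) (l : List V) :
    cbd (acup a q) (v :: v' :: l) = wcup a q (v :: v' :: l) + acup a (cbd q) (v :: v' :: l) := by
  simp only [cbd, bdL, map_add, ev_sg, ev_cons, acup, wcup, mul_add]
  have e3 : ∀ c, ev (fun l => a v * q (v :: v' :: l)) c = a v * ev (fun l => q (v :: v' :: l)) c := by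
    intro c; exact ev_const_mul _ (fun l => q (v :: v' :: l)) c
  rw [e3]
  have h1 := add_self2 (a v * q (v' :: l))
  linear_combination (-1 : ZMod 2) * h1

/-! ## supports -/

/-- chains all of whose lists satisfy `P` -/
noncomputable def supp (P : List V → Prop) : Submodule (ZMod 2) (Ch V) :=
  Finsupp.supported (ZMod 2) (ZMod 2) {l | P l}

theorem sg_mem {P : List V → Prop} {l : List V} (h : P l) : sg l ∈ supp P :=
  Finsupp.single_mem_supported (ZMod 2) (1 : ZMod 2) (by simpa using h)

theorem lift_mem {M : Type*} [AddCommMonoid M] [Module (ZMod 2) M] {P : List V → Prop}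
    {S : Submodule (ZMod 2) M} {f : Ch V →ₗ[ZMod 2] M} (h : ∀ l, P l → f (sg l) ∈ S)
    {c : Ch V} (hc : c ∈ supp P) : f c ∈ S := by
  have h1 : supp P ≤ S.comap f := by
    rw [supp, Finsupp.supported_eq_span_single, Submodule.span_le]
    rintro _ ⟨l, hl, rfl⟩
    exact h l hl
  exact h1 hc

theorem supp_mono {P Q : List V → Prop} (h : ∀ l, P l → Q l) : supp P ≤ supp Q :=
  Finsupp.supported_mono (by intro l hl; exact h l hl)

theorem ev_eq_zero {P : List V → Prop} {q : List V → ZMod 2} (h : ∀ l, P l → q l = 0)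
    {c : Ch V} (hc : c ∈ supp P) : ev q c = 0 := by
  have := lift_mem (S := (⊥ : Submodule (ZMod 2) (ZMod 2))) (f := ev q) (P := P)
    (fun l hl => by simp [h l hl]) hc
  simpa using this

theorem ev_congr {P : List V → Prop} {q q' : List V → ZMod 2} (h : ∀ l, P l → q l = q' l)
    {c : Ch V} (hc : c ∈ supp P) : ev q c = ev q' c := by
  have h0 : ev (fun l => q l + q' l) c = 0 := by
    refine ev_eq_zero (fun l hl => ?_) hc
    simp only [h l hl, add_self2]
  rw [ev_add_fun] at h0
  have h2 := add_self2 (ev q' c)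
  linear_combination h0 - h2

/-- The basic step: `∂h' = h + T h`, `a` odd, `q` even cocycle on the lists of `h'`. -/
theorem step {P P' : List V → Prop} {T : V → V} {h h' : Ch V}
    (hb : bd h' = h + mp T h) (hh : h ∈ supp P) (hh' : h' ∈ supp P')
    (a : V → ZMod 2) (q : List V → ZMod 2)
    (ha : ∀ v l, P (v :: l) → a (T v) = a v + 1)
    (hq : ∀ l, P l → q (l.map T) = q l)
    (hP : ∀ l, P l → l ≠ [])
    (hP' : ∀ l, P' l → 2 ≤ l.length)
    (hδ : ∀ l, P' l → cbd q l = 0) :
    ev (wcup a q) h' = ev q h := by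
  have h1 : ev (wcup a q) h' = ev (cbd (acup a q)) h' := by
    refine ev_congr (fun l hl => ?_) hh'
    match l, hP' l hl, hδ l hl with
    | (v :: v' :: l), _, h0 =>
      rw [cbd_acup]
      simp [acup, h0]
  rw [h1, ← ev_bd, hb, map_add, ev_mp, ← ev_add_fun]
  refine ev_congr (fun l hl => ?_) hh
  match l, hP l hl, hl with
  | (v :: l), _, hl =>
    have e1 := hq _ hl
    simp only [List.map_cons] at e1
    simp only [acup, List.map_cons, ha v l hl, e1]
    have := add_self2 (a v * q (v :: l))
    linear_combination this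

end Crest.Agent.BU
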