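import Crest.Agent.BU.Sphere

set_option autoImplicit false

/-!
# The iterated cup formula
-/
namespace Crest.Agent.BU

universe u v
variable {V : Type u} {W : Type v}

/-- `δa₁ ∪ … ∪ δa_r ∪ q` -/
def wprodq (as : List (V → ZMod 2)) (q : List V → ZMod 2) : List V → ZMod 2 :=
  as.foldr wcup q

/-- `δa₁ ∪ … ∪ δa_r` -/
def wprod (as : List (V → ZMod 2)) : List V → ZMod 2 := wprodq as (fun _ => 1)

@[simp] theorem wprodq_nil (q : List V → ZMod 2) : wprodq [] q = q := rfl
@[simp] theorem wprodq_cons (a : V → ZMod 2) (as) (q : List V → ZMod 2) :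
    wprodq (a :: as) q = wcup a (wprodq as q) := rfl

theorem cbd_wcup (a : V → ZMod 2) (q : List V → ZMod 2) (v v' v'' : V) (l : List V) :
    cbd (wcup a q) (v :: v' :: v'' :: l) = wcup a (cbd q) (v :: v' :: v'' :: l) := by
  have e3 : ∀ c, ev (fun l => (a v + a v') * q (v' :: l)) c =
      (a v + a v') * ev (fun l => q (v' :: l)) c := by
    intro c; exact ev_const_mul _ (fun l => q (v' :: l)) c
  have h1 : cbd (wcup a q) (v :: v' :: v'' :: l) =
      (a v' + a v'') * q (v'' :: l) + ((a v + a v'') * q (v'' :: l) +
        (a v + a v') * ev (fun l => q (v' :: l)) (bdL (v'' :: l))) := by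
    rw [cbd, bdL, bdL]
    simp only [map_add, ev_sg, ev_cons, wcup]
    rw [e3]
  have h2 : wcup a (cbd q) (v :: v' :: v'' :: l) =
      (a v + a v') * (q (v'' :: l) + ev (fun l => q (v' :: l)) (bdL (v'' :: l))) := by
    rw [wcup, cbd, bdL]
    simp only [map_add, ev_sg, ev_cons]
  rw [h1, h2]
  have h3 := add_self2 (a v'' * q (v'' :: l))
  linear_combination h3

theorem cbd_wprodq (Q : List V → Prop) (hQ : ∀ v l, Q (v :: l) → Q l)
    (as : List (V → ZMod 2)) (q : List V → ZMod 2) (d : ℕ)
    (hq : ∀ l, Q l → l.length = d + 2 → cbd q l = 0) (l : List V) (hl : Q l)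
    (hlen : l.length = as.length + d + 2) : cbd (wprodq as q) l = 0 := by
  induction as generalizing l with
  | nil => exact hq l hl (by simpa using hlen)
  | cons a as ih =>
    match l, hlen, hl with
    | (v :: v' :: v'' :: l), hlen, hl =>
      rw [wprodq_cons, cbd_wcup, wcup, ih (v' :: v'' :: l) (hQ _ _ hl) (by
        simp only [List.length_cons] at hlen ⊢; omega), mul_zero]
    | (v :: v' :: []), hlen, _ => simp only [List.length_cons, List.length_nil] at hlen; omega
    | (v :: []), hlen, _ => simp only [List.length_cons, List.length_nil] at hlen; omega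
    | [], hlen, _ => simp only [List.length_cons, List.length_nil] at hlen; omega

theorem wprodq_even (T : V → V) (as : List (V → ZMod 2)) (q : List V → ZMod 2)
    (Q : List V → Prop) (hQ : ∀ v l, Q (v :: l) → Q l) (hq : ∀ l, Q l → q (l.map T) = q l)
    (l : List V) (hl : Q l)
    (has : ∀ a ∈ as, ∀ x ∈ l, a (T x) = a x + 1) :
    wprodq as q (l.map T) = wprodq as q l := by
  induction as generalizing l with
  | nil => exact hq l hl
  | cons a as ih =>
    match l, hl, has with
    | (v :: v' :: l), hl, has =>
      have e := ih (v' :: l) (hQ _ _ hl) (fun a ha x hx => has a (by simp [ha]) x (by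
        simp only [List.mem_cons] at hx ⊢; tauto))
      have h1 := has a (by simp) v (by simp)
      have h2 := has a (by simp) v' (by simp)
      simp only [wprodq_cons, List.map_cons, wcup, h1, h2] at e ⊢
      rw [e]
      have h3 := add_self2 (wprodq as q (v' :: l))
      linear_combination h3
    | (v :: []), _, _ => simp [wcup]
    | [], _, _ => simp [wcup]

/-- Relative cup formula. -/
theorem cup_formula_rel {T : V → V} {h : ℕ → Ch V} (d : ℕ) (Q : List V → Prop)
    (hQ : ∀ v l, Q (v :: l) → Q l) (as : List (V → ZMod 2)) (q : List V → ZMod 2)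
    (hb : ∀ k, d ≤ k → k < d + as.length → bd (h (k + 1)) = h k + mp T (h k))
    (hs : ∀ k, d ≤ k → k ≤ d + as.length → h k ∈ supp (fun l => l.length = k + 1 ∧ Q l))
    (hodd : ∀ a ∈ as, ∀ l, Q l → ∀ x ∈ l, a (T x) = a x + 1)
    (hqe : ∀ l, Q l → q (l.map T) = q l)
    (hqδ : ∀ l, Q l → l.length = d + 2 → cbd q l = 0) :
    ev (wprodq as q) (h (d + as.length)) = ev q (h d) := by
  induction as with
  | nil => simp
  | cons a as ih =>
    have ih := ih (fun k h1 h2 => hb k h1 (by simp only [List.length_cons]; omega))
      (fun k h1 h2 => hs k h1 (by simp only [List.length_cons]; omega))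
      (fun a ha => hodd a (by simp [ha]))
    rw [← ih, wprodq_cons]
    have e : d + (a :: as).length = (d + as.length) + 1 := by simp only [List.length_cons]; omega
    rw [e]
    refine step (hb (d + as.length) (by omega) (by simp only [List.length_cons]; omega))
      (hs (d + as.length) (by omega) (by simp only [List.length_cons]; omega))
      (hs (d + as.length + 1) (by omega) (by simp only [List.length_cons]; omega)) a _ ?_ ?_ ?_ ?_ ?_
    · intro v l hl
      exact hodd a (by simp) _ hl.2 v (by simp)
    · intro l hl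
      exact wprodq_even T as q Q hQ hqe l hl.2 (fun a ha x hx => hodd a (by simp [ha]) l hl.2 x hx)
    · intro l hl h0
      rw [h0] at hl; simp at hl
    · intro l hl
      rw [hl.1]; omega
    · intro l hl
      exact cbd_wprodq Q hQ as q d hqδ l hl.2 (by rw [hl.1]; omega)

/-- Absolute cup formula: `w^n ≠ 0` with arbitrary representatives. -/
theorem cup_formula {T : V → V} {h : ℕ → Ch V} (Q : List V → Prop)
    (hQ : ∀ v l, Q (v :: l) → Q l) (as : List (V → ZMod 2)) (p : V) (h0 : h 0 = sg [p])
    (hb : ∀ k, k < as.length → bd (h (k + 1)) = h k + mp T (h k))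
    (hs : ∀ k, k ≤ as.length → h k ∈ supp (fun l => l.length = k + 1 ∧ Q l))
    (hodd : ∀ a ∈ as, ∀ l, Q l → ∀ x ∈ l, a (T x) = a x + 1) :
    ev (wprod as) (h as.length) = 1 := by
  have := cup_formula_rel (T := T) (h := h) 0 Q hQ as (fun _ => 1)
    (fun k _ h2 => hb k (by omega)) (fun k _ h2 => hs k (by omega)) hodd (fun _ _ => rfl)
    (fun l _ hl => by
      match l, hl with
      | [v, v'], _ =>
        simp only [cbd, bdL, map_add, ev_sg, ev_cons, map_zero, add_zero]
        exact add_self2 1)
  rw [Nat.zero_add, h0] at this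
  rw [wprod, this]; simp

/-- value of `wprod` is zero if some factor vanishes along the list -/
theorem wprod_eq_zero (as : List (V → ZMod 2)) (l : List V) (a : V → ZMod 2) (ha : a ∈ as)
    (h : ∀ x ∈ l, ∀ y ∈ l, a x = a y) (hl : as.length < l.length) : wprod as l = 0 := by
  unfold wprod
  induction as generalizing l with
  | nil => simp at ha
  | cons b as ih =>
    match l, hl with
    | (v :: v' :: l), hl =>
      rcases List.mem_cons.1 ha with rfl | ha
      · rw [wprodq_cons, wcup, h v (by simp) v' (by simp), add_self2, zero_mul]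
      · rw [wprodq_cons, wcup, ih (v' :: l) ha (fun x hx y hy => h x (by
          simp only [List.mem_cons] at hx ⊢; tauto) y (by
          simp only [List.mem_cons] at hy ⊢; tauto)) (by
          simp only [List.length_cons] at hl ⊢; omega), mul_zero]
    | (v :: []), hl => simp at hl
    | [], hl => simp at hl

end Crest.Agent.BU
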