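import Crest.Agent.BU.Cup

set_option autoImplicit false

/-!
# Fine chains on Euclidean unit spheres
-/
namespace Crest.Agent.BU

universe u
variable {E : Type u} [NormedAddCommGroup E] [InnerProductSpace ℝ E]

/-- linear combination -/
noncomputable def lc {m : ℕ} (b : Fin m → E) (x : Fin m → ℝ) : E := ∑ i, x i • b i

/-- normalised linear combination -/
noncomputable def nlc {m : ℕ} (b : Fin m → E) (x : Fin m → ℝ) : E := ‖lc b x‖⁻¹ • lc b x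

theorem lc_neg {m : ℕ} (b : Fin m → E) (x : Fin m → ℝ) : lc b (-x) = -lc b x := by
  simp [lc]

theorem nlc_neg {m : ℕ} (b : Fin m → E) (x : Fin m → ℝ) : nlc b (-x) = -nlc b x := by
  simp [nlc, lc_neg]

theorem lc_sub {m : ℕ} (b : Fin m → E) (x y : Fin m → ℝ) : lc b x - lc b y = lc b (x - y) := by
  simp [lc, sub_smul]

theorem norm_lc_le {m : ℕ} {b : Fin m → E} (hb : Orthonormal ℝ b) (x : Fin m → ℝ) :
    ‖lc b x‖ ≤ m * ‖x‖ := by
  calc ‖lc b x‖ ≤ ∑ i, ‖x i • b i‖ := norm_sum_le _ _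
    _ ≤ ∑ _i : Fin m, ‖x‖ := by
        refine Finset.sum_le_sum fun i _ => ?_
        rw [norm_smul, hb.1 i, mul_one]
        exact norm_le_pi_norm x i
    _ = m * ‖x‖ := by simp

theorem norm_lc_sq {m : ℕ} {b : Fin m → E} (hb : Orthonormal ℝ b) (x : Fin m → ℝ) :
    ‖lc b x‖ ^ 2 = ∑ i, x i ^ 2 := by
  have h := hb.inner_sum x x Finset.univ
  rw [← real_inner_self_eq_norm_sq]
  unfold lc
  rw [h]
  refine Finset.sum_congr rfl fun i _ => ?_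
  simp [sq]

theorem norm_lc_ge {m : ℕ} {b : Fin m → E} (hb : Orthonormal ℝ b) {x : Fin m → ℝ}
    (hx : ∑ i, |x i| = 1) : 1 ≤ m * ‖lc b x‖ := by
  have h1 : ∀ i, |x i| ≤ ‖lc b x‖ := by
    intro i
    apply abs_le_of_sq_le_sq _ (norm_nonneg _)
    rw [norm_lc_sq hb]
    exact Finset.single_le_sum (f := fun i => x i ^ 2) (fun i _ => sq_nonneg _) (Finset.mem_univ i)
  calc (1 : ℝ) = ∑ i, |x i| := hx.symm
    _ ≤ ∑ _i : Fin m, ‖lc b x‖ := Finset.sum_le_sum fun i _ => h1 i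
    _ = m * ‖lc b x‖ := by simp

theorem lc_ne_zero {m : ℕ} {b : Fin m → E} (hb : Orthonormal ℝ b) {x : Fin m → ℝ}
    (hx : ∑ i, |x i| = 1) : 0 < ‖lc b x‖ := by
  have h := norm_lc_ge hb hx
  by_contra h0
  have : ‖lc b x‖ = 0 := le_antisymm (not_lt.1 h0) (norm_nonneg _)
  rw [this] at h; norm_num at h

theorem norm_nlc {m : ℕ} {b : Fin m → E} (hb : Orthonormal ℝ b) {x : Fin m → ℝ}
    (hx : ∑ i, |x i| = 1) : ‖nlc b x‖ = 1 := by
  have h := lc_ne_zero hb hx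
  rw [nlc, norm_smul, norm_inv, norm_norm, inv_mul_cancel₀ h.ne']

/-- normalisation is 2-Lipschitz relative to the norm -/
theorem norm_normalize_sub_le (x y : E) (hx : 0 < ‖x‖) (hy : 0 < ‖y‖) :
    ‖‖x‖⁻¹ • x - ‖y‖⁻¹ • y‖ ≤ 2 * ‖x - y‖ * ‖x‖⁻¹ := by
  have e : ‖x‖⁻¹ • x - ‖y‖⁻¹ • y = ‖x‖⁻¹ • (x - y) + ((‖y‖ - ‖x‖) * ‖x‖⁻¹) • (‖y‖⁻¹ • y) := by
    rw [smul_sub, smul_smul]
    have : (‖y‖ - ‖x‖) * ‖x‖⁻¹ * ‖y‖⁻¹ = ‖x‖⁻¹ - ‖y‖⁻¹ := by field_simp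
    rw [this, sub_smul]; abel
  rw [e]
  have h1 : ‖‖x‖⁻¹ • (x - y)‖ = ‖x - y‖ * ‖x‖⁻¹ := by
    rw [norm_smul, norm_inv, norm_norm, mul_comm]
  have h2 : ‖((‖y‖ - ‖x‖) * ‖x‖⁻¹) • (‖y‖⁻¹ • y)‖ ≤ ‖x - y‖ * ‖x‖⁻¹ := by
    rw [norm_smul, norm_smul, norm_inv, norm_norm, inv_mul_cancel₀ hy.ne', mul_one, norm_mul,
      norm_inv, norm_norm, Real.norm_eq_abs]
    have : |‖y‖ - ‖x‖| ≤ ‖x - y‖ := by rw [norm_sub_rev x y]; exact abs_norm_sub_norm_le y x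
    gcongr
  calc _ ≤ ‖‖x‖⁻¹ • (x - y)‖ + ‖((‖y‖ - ‖x‖) * ‖x‖⁻¹) • (‖y‖⁻¹ • y)‖ := norm_add_le _ _
    _ ≤ ‖x - y‖ * ‖x‖⁻¹ + ‖x - y‖ * ‖x‖⁻¹ := by rw [h1]; linarith
    _ = 2 * ‖x - y‖ * ‖x‖⁻¹ := by ring

theorem dist_nlc_le {m : ℕ} {b : Fin m → E} (hb : Orthonormal ℝ b) {x y : Fin m → ℝ}
    (hx : ∑ i, |x i| = 1) (hy : ∑ i, |y i| = 1) :
    dist (nlc b x) (nlc b y) ≤ 2 * m ^ 2 * dist x y := by
  have h1 := lc_ne_zero hb hx
  have h2 := lc_ne_zero hb hy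
  have h3 := norm_normalize_sub_le _ _ h1 h2
  have h4 := norm_lc_ge hb hx
  have h5 : ‖lc b x‖⁻¹ ≤ m := by
    rw [inv_le_iff_one_le_mul₀ h1]; exact h4
  have h6 : ‖lc b x - lc b y‖ ≤ m * dist x y := by
    rw [lc_sub, dist_eq_norm]; exact norm_lc_le hb _
  rw [dist_eq_norm]
  calc ‖nlc b x - nlc b y‖ ≤ 2 * ‖lc b x - lc b y‖ * ‖lc b x‖⁻¹ := h3
    _ ≤ 2 * (m * dist x y) * m := by gcongr
    _ = 2 * m ^ 2 * dist x y := by ring

theorem nlc_mem {m : ℕ} (b : Fin m → E) {k : ℕ} {x : Fin m → ℝ} (hx : x ∈ L1 m k) :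
    nlc b x ∈ Submodule.span ℝ (b '' {i | (i : ℕ) ≤ k}) := by
  refine Submodule.smul_mem _ _ (Submodule.sum_mem _ fun i _ => ?_)
  by_cases hi : (i : ℕ) ≤ k
  · exact Submodule.smul_mem _ _ (Submodule.subset_span ⟨i, hi, rfl⟩)
  · rw [hx.2 i (by omega), zero_smul]; exact Submodule.zero_mem _

/-- lists of unit vectors of the span of `b`, of small diameter -/
def Fine {m : ℕ} (b : Fin m → E) (ε : ℝ) (l : List E) : Prop :=
  (∀ x ∈ l, ‖x‖ = 1 ∧ x ∈ Submodule.span ℝ (Set.range b)) ∧ ∀ x ∈ l, ∀ y ∈ l, dist x y < ε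

theorem Fine.tail {m : ℕ} {b : Fin m → E} {ε : ℝ} (v : E) (l : List E) (h : Fine b ε (v :: l)) :
    Fine b ε l :=
  ⟨fun x hx => h.1 x (by simp [hx]), fun x hx y hy => h.2 x (by simp [hx]) y (by simp [hy])⟩

/-- **Fine hemisphere chains on the Euclidean unit sphere of the span of an orthonormal
family.** -/
theorem sphere_chains {m : ℕ} (b : Fin m → E) (hb : Orthonormal ℝ b) (hm : 0 < m) {ε : ℝ}
    (hε : 0 < ε) : ∃ (p : E) (h : ℕ → Ch E), h 0 = sg [p] ∧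
      (∀ k, bd (h (k + 1)) = h k + mp (fun x => -x) (h k)) ∧
      ∀ k, k < m → h k ∈ supp (fun l => l.length = k + 1 ∧
        (∀ x ∈ l, x ∈ Submodule.span ℝ (b '' {i | (i : ℕ) ≤ k})) ∧ Fine b ε l) := by
  obtain ⟨N, hN⟩ := exists_nat_gt (4 * (m : ℝ) ^ 3 / ε)
  have hN0 : 0 < N := by
    have : (0 : ℝ) < N := lt_of_le_of_lt (by positivity) hN
    exact_mod_cast this
  have hN' : (0 : ℝ) < N := by exact_mod_cast hN0
  refine ⟨nlc b (ev1 m 0), fun k => mp (nlc b) (hch (ev1 m) N k), ?_, ?_, ?_⟩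
  · simp [hch]
  · intro k
    rw [bd_mp, bd_hch _ hN0, map_add, mp_mp, mp_mp]
    congr 2
    simp only [nlc_neg]
  · intro k hk
    refine lift_mem (fun l hl => ?_) (hch_mem m hN0 k hk)
    rw [mp_sg]
    refine sg_mem ⟨by simp [hl.1], ?_, ?_, ?_⟩
    · intro x hx
      obtain ⟨y, hy, rfl⟩ := List.mem_map.1 hx
      exact nlc_mem b (hl.2.1 y hy)
    · intro x hx
      obtain ⟨y, hy, rfl⟩ := List.mem_map.1 hx
      refine ⟨norm_nlc hb (hl.2.1 y hy).1, ?_⟩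
      exact Submodule.span_mono (Set.image_subset_range _ _) (nlc_mem b (hl.2.1 y hy))
    · intro x hx y hy
      obtain ⟨x', hx', rfl⟩ := List.mem_map.1 hx
      obtain ⟨y', hy', rfl⟩ := List.mem_map.1 hy
      have h1 := dist_nlc_le hb (hl.2.1 x' hx').1 (hl.2.1 y' hy').1
      have h2 := hl.2.2 x' hx' y' hy'
      have hkm : (k : ℝ) ≤ m := by exact_mod_cast hk.le
      have hm' : (0 : ℝ) < m := by exact_mod_cast hm
      calc dist (nlc b x') (nlc b y') ≤ 2 * m ^ 2 * dist x' y' := h1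
        _ ≤ 2 * m ^ 2 * (m * (2 / N)) := by gcongr; exact h2.trans (by gcongr)
        _ = 4 * m ^ 3 / N := by ring
        _ < ε := by
            rw [div_lt_iff₀ hN']
            rw [div_lt_iff₀ hε] at hN
            linarith

/-- **Cup formula on spheres (existence form).** `a₁, …, a_{m-1}` arbitrary odd functions on the
unit sphere: there is a fine list with all the consecutive sign changes. -/
theorem exists_rainbow {m : ℕ} (b : Fin (m + 1) → E) (hb : Orthonormal ℝ b) {ε : ℝ} (hε : 0 < ε)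
    (as : List (E → ZMod 2)) (has : as.length = m)
    (hodd : ∀ a ∈ as, ∀ x, ‖x‖ = 1 → x ∈ Submodule.span ℝ (Set.range b) → a (-x) = a x + 1) :
    ∃ l : List E, l.length = m + 1 ∧ Fine b ε l ∧ wprod as l ≠ 0 := by
  obtain ⟨p, h, h0, hbd, hs⟩ := sphere_chains b hb (Nat.succ_pos m) hε
  have key := cup_formula (T := fun x => -x) (h := h) (Fine b ε) Fine.tail as p h0
    (fun k _ => hbd k) (fun k hk => supp_mono (fun l hl => ⟨hl.1, hl.2.2⟩) (hs k (by omega)))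
    (fun a ha l hl x hx => hodd a ha x (hl.1 x hx).1 (hl.1 x hx).2)
  by_contra hcon
  push Not at hcon
  have : ev (wprod as) (h as.length) = 0 := ev_eq_zero (P := fun l => l.length = m + 1 ∧ Fine b ε l)
    (fun l hl => hcon l hl.1 hl.2)
    (supp_mono (fun l hl => ⟨by rw [hl.1, has], hl.2.2⟩) (hs as.length (by omega)))
  rw [this] at key
  exact absurd key (by decide)

end Crest.Agent.BU
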