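import Crest.Agent.BU.Basic

set_option autoImplicit false

/-!
# Fine hemisphere chains on the l1-sphere and the cup formula
-/
namespace Crest.Agent.BU

universe u v
variable {V : Type u} {W : Type v}

theorem bd_pr (φ ψ : V → W) (c : Ch V) :
    bd (pr φ ψ c) + pr φ ψ (bd c) = mp φ c + mp ψ c := by
  have := hom_ext (f := bd ∘ₗ pr φ ψ + pr φ ψ ∘ₗ bd) (g := mp φ + mp ψ) (fun l => by
    simpa using bd_prL φ ψ l) c
  simpa using this

theorem telescope (F : ℕ → Ch V) (N : ℕ) :
    ∑ j ∈ Finset.range N, (F j + F (j + 1)) = F 0 + F N := by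
  induction N with
  | zero => simp [add_self]
  | succ N ih =>
    rw [Finset.sum_range_succ, ih]
    have := add_self (F N)
    apply eq_of_add_self
    abel_nf
    simp [two_sm]

theorem prL_mem (φ ψ : V → W) (l : List V) :
    prL φ ψ l ∈ supp (fun l' => l'.length = l.length + 1 ∧ ∀ z ∈ l', ∃ x ∈ l, z = φ x ∨ z = ψ x) := by
  induction l with
  | nil => simp [prL]
  | cons v l ih =>
    rw [prL]
    refine Submodule.add_mem _ (sg_mem ?_) ?_
    · refine ⟨by simp, ?_⟩
      intro z hz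
      simp only [List.mem_cons, List.mem_map] at hz
      rcases hz with h | h | ⟨x, hx, h⟩
      · exact ⟨v, by simp, Or.inl h⟩
      · exact ⟨v, by simp, Or.inr h⟩
      · exact ⟨x, by simp [hx], Or.inr h.symm⟩
    · refine lift_mem (f := cons (φ v)) (fun l' hl' => ?_) ih
      rw [cons_sg]
      refine sg_mem ⟨by simp [hl'.1], ?_⟩
      intro z hz
      simp only [List.mem_cons] at hz
      rcases hz with h | h
      · exact ⟨v, by simp, Or.inl h⟩
      · obtain ⟨x, hx, hx'⟩ := hl'.2 z h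
        exact ⟨x, by simp [hx], hx'⟩

section contr
variable {E : Type u} [NormedAddCommGroup E] [NormedSpace ℝ E]

/-- contraction towards `p` -/
noncomputable def contr (p : E) (t : ℝ) (x : E) : E := (1 - t) • x + t • p

theorem contr_zero (p : E) : contr p 0 = fun x => x := by
  funext x; simp [contr]

theorem contr_one (p : E) (x : E) : contr p 1 x = p := by simp [contr]

theorem dist_contr_le (p : E) {t : ℝ} (h0 : 0 ≤ t) (h1 : t ≤ 1) (x y : E) :
    dist (contr p t x) (contr p t y) ≤ dist x y := by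
  have : contr p t x - contr p t y = (1 - t) • (x - y) := by
    simp only [contr, smul_sub]; abel
  rw [dist_eq_norm, this, norm_smul, dist_eq_norm]
  have h2 : ‖(1 - t : ℝ)‖ ≤ 1 := by
    rw [Real.norm_eq_abs, abs_le]; constructor <;> linarith
  calc ‖(1 - t : ℝ)‖ * ‖x - y‖ ≤ 1 * ‖x - y‖ := by gcongr
    _ = ‖x - y‖ := one_mul _

theorem dist_contr_contr (p : E) (t t' : ℝ) (x : E) :
    dist (contr p t x) (contr p t' x) = |t' - t| * dist x p := by
  have : contr p t x - contr p t' x = (t' - t) • (x - p) := by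
    simp only [contr, smul_sub, sub_smul, one_smul]; abel
  rw [dist_eq_norm, this, norm_smul, dist_eq_norm, Real.norm_eq_abs]

/-- fill a cycle by contracting it to `p` in `N` steps -/
noncomputable def fill (p : E) (N : ℕ) (z : Ch E) : Ch E :=
  (∑ j ∈ Finset.range N, pr (contr p ((j : ℝ) / N)) (contr p (((j + 1 : ℕ) : ℝ) / N)) z) +
    cons p (mp (contr p 1) z)

theorem bd_fill (p : E) {N : ℕ} (hN : 0 < N) {z : Ch E} (hz : bd z = 0) :
    bd (fill p N z) = z := by
  have h1 : ∀ j : ℕ, bd (pr (contr p ((j : ℝ) / N)) (contr p (((j + 1 : ℕ) : ℝ) / N)) z) =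
      mp (contr p ((j : ℝ) / N)) z + mp (contr p (((j + 1 : ℕ) : ℝ) / N)) z := by
    intro j
    have := bd_pr (contr p ((j : ℝ) / N)) (contr p (((j + 1 : ℕ) : ℝ) / N)) z
    rwa [hz, map_zero, add_zero] at this
  have hN' : (N : ℝ) ≠ 0 := by positivity
  rw [fill, map_add, map_sum, Finset.sum_congr rfl (fun j _ => h1 j),
    telescope (fun j => mp (contr p ((j : ℝ) / N)) z) N, bd_cons, bd_mp, hz]
  simp only [Nat.cast_zero, zero_div, contr_zero, map_zero, add_zero, div_self hN', mp_id]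
  rw [add_assoc, add_self, add_zero]

/-- the hemisphere chains -/
noncomputable def hch (e : ℕ → E) (N : ℕ) : ℕ → Ch E
  | 0 => sg [e 0]
  | (k + 1) => fill (e (k + 1)) N (hch e N k + mp (fun x => -x) (hch e N k))

omit [NormedSpace ℝ E] in
theorem mp_neg_neg (c : Ch E) : mp (fun x : E => -x) (mp (fun x : E => -x) c) = c := by
  rw [mp_mp]; simp [mp_id]

theorem bd_hch_add (e : ℕ → E) {N : ℕ} (hN : 0 < N) (k : ℕ) :
    bd (hch e N k + mp (fun x => -x) (hch e N k)) = 0 := by
  induction k with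
  | zero => simp [hch, bdL, add_self]
  | succ k ih =>
    rw [map_add, bd_mp]
    have : bd (hch e N (k + 1)) = hch e N k + mp (fun x => -x) (hch e N k) := bd_fill _ hN ih
    rw [this, map_add, mp_neg_neg, add_comm (mp _ _), add_self]

theorem bd_hch (e : ℕ → E) {N : ℕ} (hN : 0 < N) (k : ℕ) :
    bd (hch e N (k + 1)) = hch e N k + mp (fun x => -x) (hch e N k) :=
  bd_fill _ hN (bd_hch_add e hN k)

theorem fill_mem (p : E) {N : ℕ} (hN : 0 < N) {A B : Set E} {d R : ℝ} (m : ℕ)
    (hd : 0 ≤ d) (hR : ∀ x ∈ A, dist x p ≤ R) (hp : p ∈ B)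
    (hAB : ∀ x ∈ A, ∀ t : ℝ, 0 ≤ t → t ≤ 1 → contr p t x ∈ B) {z : Ch E}
    (hz : z ∈ supp (fun l => l.length = m ∧ (∀ x ∈ l, x ∈ A) ∧ ∀ x ∈ l, ∀ y ∈ l, dist x y ≤ d))
    (hR0 : 0 ≤ R) :
    fill p N z ∈ supp (fun l => l.length = m + 1 ∧ (∀ x ∈ l, x ∈ B) ∧
      ∀ x ∈ l, ∀ y ∈ l, dist x y ≤ d + R / N) := by
  have hN' : (0 : ℝ) < N := by exact_mod_cast hN
  refine Submodule.add_mem _ (Submodule.sum_mem _ fun j hj => ?_) ?_
  · refine lift_mem (fun l hl => ?_) hz
    rw [pr_sg]
    refine supp_mono ?_ (prL_mem _ _ l)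
    rintro l' ⟨h1, h2⟩
    have hjN : (j : ℝ) + 1 ≤ N := by exact_mod_cast Finset.mem_range.1 hj
    have t0 : (0 : ℝ) ≤ (j : ℝ) / N := by positivity
    have t1 : (j : ℝ) / N ≤ 1 := by rw [div_le_one hN']; linarith
    have s0 : (0 : ℝ) ≤ ((j + 1 : ℕ) : ℝ) / N := by positivity
    have s1 : ((j + 1 : ℕ) : ℝ) / N ≤ 1 := by rw [div_le_one hN']; push_cast; exact hjN
    have hts : |((j + 1 : ℕ) : ℝ) / N - (j : ℝ) / N| = 1 / N := by
      rw [← sub_div]; push_cast; rw [add_sub_cancel_left, abs_of_nonneg (by positivity)]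
    have hst : |(j : ℝ) / N - ((j + 1 : ℕ) : ℝ) / N| = 1 / N := by rw [abs_sub_comm, hts]
    refine ⟨by rw [h1, hl.1], ?_, ?_⟩
    · intro x hx
      obtain ⟨y, hy, rfl | rfl⟩ := h2 x hx
      · exact hAB _ (hl.2.1 y hy) _ t0 t1
      · exact hAB _ (hl.2.1 y hy) _ s0 s1
    · intro x hx y hy
      obtain ⟨x', hx', rfl | rfl⟩ := h2 x hx <;> obtain ⟨y', hy', rfl | rfl⟩ := h2 y hy
      · have := dist_contr_le p t0 t1 x' y'
        have := hl.2.2 x' hx' y' hy'
        have : 0 ≤ R / N := by positivity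
        linarith
      · calc dist (contr p ((j : ℝ) / N) x') (contr p (((j + 1 : ℕ) : ℝ) / N) y')
            ≤ dist (contr p ((j : ℝ) / N) x') (contr p ((j : ℝ) / N) y') +
              dist (contr p ((j : ℝ) / N) y') (contr p (((j + 1 : ℕ) : ℝ) / N) y') :=
              dist_triangle _ _ _
          _ ≤ d + R / N := by
              rw [dist_contr_contr, hts]
              have a1 := dist_contr_le p t0 t1 x' y'
              have a2 := hl.2.2 x' hx' y' hy'
              have a3 := hR y' (hl.2.1 y' hy')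
              have a4 : 1 / (N : ℝ) * dist y' p ≤ 1 / N * R := by gcongr
              have a5 : 1 / (N : ℝ) * R = R / N := by ring
              linarith
      · calc dist (contr p (((j + 1 : ℕ) : ℝ) / N) x') (contr p ((j : ℝ) / N) y')
            ≤ dist (contr p (((j + 1 : ℕ) : ℝ) / N) x') (contr p (((j + 1 : ℕ) : ℝ) / N) y') +
              dist (contr p (((j + 1 : ℕ) : ℝ) / N) y') (contr p ((j : ℝ) / N) y') :=
              dist_triangle _ _ _
          _ ≤ d + R / N := by
              rw [dist_contr_contr, hst]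
              have a1 := dist_contr_le p s0 s1 x' y'
              have a2 := hl.2.2 x' hx' y' hy'
              have a3 := hR y' (hl.2.1 y' hy')
              have a4 : 1 / (N : ℝ) * dist y' p ≤ 1 / N * R := by gcongr
              have a5 : 1 / (N : ℝ) * R = R / N := by ring
              linarith
      · have := dist_contr_le p s0 s1 x' y'
        have := hl.2.2 x' hx' y' hy'
        have : 0 ≤ R / N := by positivity
        linarith
  · refine lift_mem (f := cons p ∘ₗ mp (contr p 1)) (fun l hl => ?_) hz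
    simp only [LinearMap.comp_apply, mp_sg, cons_sg]
    have hall : ∀ x ∈ p :: l.map (contr p 1), x = p := by
      intro x hx
      simp only [List.mem_cons, List.mem_map] at hx
      rcases hx with h | ⟨y, _, h⟩
      · exact h
      · rw [← h, contr_one]
    refine sg_mem ⟨by simp [hl.1], ?_, ?_⟩
    · intro x hx; rw [hall x hx]; exact hp
    · intro x hx y hy
      rw [hall x hx, hall y hy, dist_self]; positivity

end contr

/-! ## The l1 sphere -/

/-- coordinate vectors -/
def ev1 (m : ℕ) (k : ℕ) : Fin m → ℝ := fun i => if (i : ℕ) = k then 1 else 0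

/-- `k`-dimensional l1-sphere -/
def L1 (m k : ℕ) : Set (Fin m → ℝ) := {x | ∑ i, |x i| = 1 ∧ ∀ i : Fin m, k < (i : ℕ) → x i = 0}

theorem ev1_mem {m k : ℕ} (hk : k < m) : ev1 m k ∈ L1 m k := by
  constructor
  · rw [Finset.sum_eq_single (⟨k, hk⟩ : Fin m)]
    · simp [ev1]
    · intro i _ hi
      have : (i : ℕ) ≠ k := fun h => hi (Fin.ext h)
      simp [ev1, this]
    · simp
  · intro i hi
    have : (i : ℕ) ≠ k := by omega
    simp [ev1, this]

theorem L1_norm_le {m k : ℕ} {x : Fin m → ℝ} (hx : x ∈ L1 m k) : ‖x‖ ≤ 1 := by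
  rw [pi_norm_le_iff_of_nonneg zero_le_one]
  intro i
  have h1 : |x i| ≤ ∑ i, |x i| :=
    Finset.single_le_sum (f := fun i => |x i|) (fun i _ => abs_nonneg _) (Finset.mem_univ i)
  rw [hx.1] at h1
  rwa [Real.norm_eq_abs]

theorem L1_mono {m k k' : ℕ} (h : k ≤ k') : L1 m k ⊆ L1 m k' :=
  fun _ hx => ⟨hx.1, fun i hi => hx.2 i (lt_of_le_of_lt h hi)⟩

theorem L1_neg {m k : ℕ} {x : Fin m → ℝ} (hx : x ∈ L1 m k) : -x ∈ L1 m k := by
  refine ⟨by simpa using hx.1, fun i hi => by simp [hx.2 i hi]⟩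

theorem contr_L1 {m k : ℕ} (hk : k + 1 < m) {x : Fin m → ℝ} (hx : x ∈ L1 m k) {t : ℝ}
    (h0 : 0 ≤ t) (h1 : t ≤ 1) : contr (ev1 m (k + 1)) t x ∈ L1 m (k + 1) := by
  have hval : ∀ i : Fin m, |contr (ev1 m (k + 1)) t x i| = (1 - t) * |x i| + t * |ev1 m (k + 1) i| := by
    intro i
    by_cases hi : (i : ℕ) = k + 1
    · have hxi : x i = 0 := hx.2 i (by omega)
      simp [contr, ev1, hi, hxi, abs_of_nonneg h0]
    · simp [contr, ev1, hi, abs_mul, abs_of_nonneg (by linarith : (0 : ℝ) ≤ 1 - t)]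
  constructor
  · rw [Finset.sum_congr rfl (fun i _ => hval i), Finset.sum_add_distrib, ← Finset.mul_sum,
      ← Finset.mul_sum, hx.1, (ev1_mem hk).1]
    ring
  · intro i hi
    have h2 : (i : ℕ) ≠ k + 1 := by omega
    simp [contr, ev1, h2, hx.2 i (by omega)]

/-- The fine hemisphere chains of the l1-sphere. -/
theorem hch_mem (m : ℕ) {N : ℕ} (hN : 0 < N) (k : ℕ) (hk : k < m) :
    hch (ev1 m) N k ∈ supp (fun l => l.length = k + 1 ∧ (∀ x ∈ l, x ∈ L1 m k) ∧
      ∀ x ∈ l, ∀ y ∈ l, dist x y ≤ k * (2 / N)) := by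
  induction k with
  | zero =>
    refine sg_mem ⟨rfl, ?_, ?_⟩
    · intro x hx
      rw [List.mem_singleton.1 hx]; exact ev1_mem hk
    · intro x hx y hy
      rw [List.mem_singleton.1 hx, List.mem_singleton.1 hy]; simp
  | succ k ih =>
    have ih := ih (by omega)
    have hN' : (0 : ℝ) < N := by exact_mod_cast hN
    have h1 := fill_mem (ev1 m (k + 1)) hN (A := L1 m k) (B := L1 m (k + 1))
      (d := k * (2 / N)) (R := 2) (k + 1) (by positivity) (fun x hx => by
        rw [dist_eq_norm]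
        have a1 := norm_sub_le x (ev1 m (k + 1))
        have a2 := L1_norm_le hx
        have a3 := L1_norm_le (ev1_mem hk)
        linarith) (ev1_mem hk) (fun x hx t h0 h1 => contr_L1 hk hx h0 h1)
        (z := hch (ev1 m) N k + mp (fun x => -x) (hch (ev1 m) N k))
        (Submodule.add_mem _ ih (lift_mem (fun l hl => by
          rw [mp_sg]
          refine sg_mem ⟨by simp [hl.1], ?_, ?_⟩
          · intro x hx
            obtain ⟨y, hy, rfl⟩ := List.mem_map.1 hx
            exact L1_neg (hl.2.1 y hy)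
          · intro x hx y hy
            obtain ⟨x', hx', rfl⟩ := List.mem_map.1 hx
            obtain ⟨y', hy', rfl⟩ := List.mem_map.1 hy
            rw [dist_neg_neg]
            exact hl.2.2 x' hx' y' hy') ih)) (by norm_num)
    rw [hch]
    have e : ((k + 1 : ℕ) : ℝ) * (2 / N) = k * (2 / N) + 2 / N := by push_cast; ring
    rw [e]
    exact h1

end Crest.Agent.BU
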